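import Vale.Agent.P210H.Wall
import Vale.Agent.P210E.Chain
import Vale.Agent.P210K.Base

/-!
# P210H: the work on the hypersurface (`ZL`): shield move, zoom, radial lemma
-/

open Real Topology Set
open Filter hiding ker
open scoped ContDiff
open Vale.Agent.P366M Vale.Agent.P366M.Gr Vale.Agent.P366M.Y.C Vale.Agent.P210G Vale.Agent.P210U
open Vale.Agent.P210E
open Vale.Agent.P366H (DD DD_ge s1 s1_nn s1_le hd0 sm_st)

noncomputable section

namespace Vale.Agent.P210H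

theorem gn_lin {n : ℕ} {Z : Type} [Mf0 n Z] {γ : Fld n Z} {u p q : Z → ℝ} {z : Z} (hγ : Met γ)
    {a b : ℝ} (e : ∀ i, pd i u z = a * pd i p z + b * pd i q z) :
    gn γ u z ≤ |a| * gn γ p z + |b| * gn γ q z := by
  rw [← gn_of_pd (pd_const_mul a), ← gn_of_pd (pd_const_mul b)]
  exact hγ.gn_add_le fun i => by rw [e, pd_const_mul, pd_const_mul]

/-- **the shield move**: below the height `T` the curvature is large -/
theorem shield {k : ℕ} (hM : MOVE (k + 1)) {Q : ℝ} (Q0 : 0 ≤ Q) : ∃ Γ₀ : ℝ, ∀ Γ ≥ Γ₀,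
    ∀ {Z : Type} [Mf0 (k + 1) Z] {γ : Fld (k + 1) Z} {β : Fin (k + 1) → Z → ℝ} {l α : Z → ℝ}
      {D : Fin k → Z → ℝ} {W w h : Z → ℝ} {a ε m l₀ h₁ : ℝ}, Zh γ β l α D W w h a ε m l₀ Γ h₁ →
      ∀ η > (0 : ℝ), ∀ T > (0 : ℝ), ∃ u β₁, Smooth u ∧
        Reach γ {z | w z ≤ 5 / 4} (fun z => a / l z ^ 2 - η) (γ, β) (gb γ 1 u, β₁) ∧
        ∀ z, (9 / 8 ≤ w z → u z ≤ -T) ∧ (w z ≤ 11 / 8 → a / l z ^ 2 - η ≤ Rv (gb γ 1 u) β₁ z ∧
          (u z ≤ T → a / l z ^ 2 + Q - η ≤ Rv (gb γ 1 u) β₁ z)) := by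
  obtain ⟨Γ₀, Γ0, Γ1, hw⟩ := wall 0 (Q + 1)
  refine ⟨Γ₀, fun Γ hΓ Z _ γ β l α D W w h a ε m l₀ h₁ H η η0 T T0 => ?_⟩
  obtain ⟨M₁, hw⟩ := hw h₁
  have cw := H.smw.cont
  have cK : IsClosed {z | w z ≤ 5 / 4} := isClosed_le cw continuous_const
  obtain ⟨A₀, hA⟩ := hM Z γ β {z | 1 < w z} ∅ {z | 9 / 8 ≤ w z} ∅ {z | w z ≤ 9 / 8}
    {z | w z ≤ 5 / 4} H.ok.met H.ok.cc (isOpen_lt continuous_const cw) isOpen_empty
    (isClosed_le continuous_const cw) isClosed_empty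
    (fun z (k : 9 / 8 ≤ w z) => show 1 < w z by linarith) subset_rfl
    (H.cpt.of_isClosed_subset cK fun z (k : w z ≤ 5 / 4) => show w z ≤ 11 / 8 by linarith)
    (isClosed_le cw continuous_const) (fun z (k : w z ≤ 9 / 8) => mem_interior_iff_mem_nhds.2
      ((cw.continuousAt.eventually (gt_mem_nhds (show w z < 5 / 4 by linarith))).mono
        fun y b => le_of_lt b))
    fun z (k : ¬w z ≤ 9 / 8) => Or.inl (le_of_lt (not_le.1 k))
  obtain ⟨F, sF, hF⟩ := hw (κ := fun _ => 1) zero_le_one ⟨H.ok.met, H.smW, H.smw, H.smh, cd_const,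
    H.W1, H.h0, H.low, fun z => by linarith [H.lrg z, H.W1 z], H.cls, H.pos,
    fun z p q => by nlinarith [H.big z p q, sq_nonneg (h z)], fun _ => le_rfl,
    fun z => (gn_zero fun i => pd_const _ i z).le, fun _ => Or.inl (.of_forall fun _ => rfl)⟩
    (max A₀ M₁) (le_max_right _ _)
  obtain ⟨_, -, -, u, β₁, V⟩ := hA _ (le_max_left _ _) F sF (fun z => (hF z).1)
    (fun z k => (hF z).2.1 (le_of_lt k)) (fun _ k => k.elim) η η0 T T0
  have q0 : ∀ z, 0 ≤ (W z - 1) / W z := fun z =>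
    div_nonneg (by linarith [H.W1 z]) (by linarith [H.W1 z])
  have r : ∀ z, w z ≤ 11 / 8 → a / l z ^ 2 ≤ Rv γ β z ∧ (2 ≤ W z → a / l z ^ 2 + Q ≤ Rv γ β z) ∧
      a / l z ^ 2 + Q ≤ Rv γ β z + F z ^ 2 - 2 * gn γ F z := fun z k => by
    have b1 := (H.bd z k).1
    have b2 := mul_le_mul_of_nonneg_right hΓ (q0 z)
    have b3 := sq_nonneg (gn γ W z / W z)
    refine ⟨by nlinarith [q0 z], fun p => ?_, by linarith [(hF z).2.2.2.2]⟩
    have : 1 / 2 ≤ (W z - 1) / W z := by rw [le_div_iff₀ (by linarith)]; linarith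
    nlinarith
  have off : ∀ z, 5 / 4 < w z → Rv γ β z = Rv (gb γ 1 u) β₁ z := fun z k =>
    V.rch.same.Rv_eq cK (not_le.2 k)
  refine ⟨u, β₁, V.smw, V.rch.mono fun z (k : w z ≤ 5 / 4) => sub_le_sub_right (le_min
    (r z (by linarith)).1 (by linarith [(r z (by linarith)).2.2])) _, fun z => ⟨V.lo z, fun k => ?_⟩⟩
  obtain ⟨r1, r2, r3⟩ := r z k
  rcases lt_or_ge (5 / 4) (w z) with p | p
  · rw [← off z p]
    exact ⟨by linarith, fun _ => by linarith [r2 (by linarith [H.lrg z])]⟩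
  have v1 := V.val.le z p
  refine ⟨(sub_le_sub_right (le_min r1 (by linarith)) _).trans v1, fun q => ?_⟩
  rcases le_or_gt 2 (W z) with s | s
  · exact (sub_le_sub_right (le_min (r2 s) r3) _).trans v1
  · linarith [V.gain z (show w z ≤ 9 / 8 by linarith [H.lrg z]) (Or.inr ⟨q, not_lt.1 fun t =>
      absurd ((hF z).2.2.2.1 t) (not_le.2 s)⟩)]

/-- **the zoom factor** -/
theorem zoom {n : ℕ} {Z : Type} [Mf0 n Z] {γ : Fld n Z} {u : Z → ℝ} (su : Smooth u)
    (gu : ∀ z, gn γ u z ≤ 1) {m δ : ℝ} (hm : 1 ≤ m) {T : ℝ} (T0 : 0 < T) (hT : m * DD ≤ δ * T) :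
    ∃ μ, Smooth μ ∧ ∀ z, 1 ≤ μ z ∧ μ z ≤ m ∧ (T ≤ u z → μ z = 1) ∧ (u z ≤ -T → μ z = m) ∧
      gn γ μ z ≤ δ := by
  have hD := DD_ge
  refine ⟨fun z => 1 + (m - 1) * smoothTransition ((T - u z) / (2 * T)), cd_of_cAt le_rfl fun z =>
    cAt_const.add (cAt_const.mul (sm_st.contDiffAt.compM ((cAt_const.sub (CD.contDiffAt su)).div
      cAt_const (by positivity)))), fun z => ⟨?_, ?_, fun k => ?_, fun k => ?_, ?_⟩⟩ <;> beta_reduce
  · nlinarith [smoothTransition.nonneg ((T - u z) / (2 * T))]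
  · nlinarith [smoothTransition.le_one ((T - u z) / (2 * T))]
  · rw [smoothTransition.zero_of_nonpos (div_nonpos_of_nonpos_of_nonneg (by linarith)
      (by positivity)), mul_zero, add_zero]
  · rw [smoothTransition.one_of_one_le ((one_le_div (by positivity)).2 (by linarith))]; ring
  have hd : HasDerivAt (fun t => 1 + (m - 1) * smoothTransition ((T - t) / (2 * T)))
      ((m - 1) * (s1 ((T - u z) / (2 * T)) * (-1 / (2 * T)))) (u z) :=
    (((hd0 _).comp (u z) (((hasDerivAt_id (u z)).const_sub T).div_const _)).const_mul _).const_add 1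
  rw [gn_comp hd (su.diff z), abs_mul, abs_mul, abs_of_nonneg (by linarith), abs_of_nonneg (s1_nn _),
    abs_div, abs_neg, abs_one, abs_of_pos (by positivity)]
  refine (mul_le_of_le_one_right (mul_nonneg (by linarith) (mul_nonneg (s1_nn _) (by positivity)))
    (gu z)).trans ?_
  rw [mul_one_div, ← mul_div_assoc, div_le_iff₀ (by positivity)]
  nlinarith [s1_le ((T - u z) / (2 * T)), s1_nn ((T - u z) / (2 * T))]

/-- **ZL** in dimension one -/
theorem zl_zero : ZL 0 := by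
  refine ⟨1, le_rfl, 1, one_pos, fun a a0 η _ => ⟨1, one_pos, fun ε _ _ m _ l₀ _ => ⟨0,
    fun Γ hΓ Z _ γ β l α D W w h h₁ H => ?_⟩⟩⟩
  have k : ∀ z, w z ≤ 11 / 8 := fun z => not_lt.1 fun q => by
    have := H.far z (by linarith)
    norm_num [nsq] at this
  have e : {z | w z ≤ 11 / 8} = univ := eq_univ_of_forall k
  refine absurd (P210K.base_empty H.ok.met H.ok.cc isOpen_univ (e ▸ H.cpt) fun z _ => ?_)
    univ_nonempty.ne_empty
  have := mul_nonneg hΓ (div_nonneg (sub_nonneg.2 (H.W1 z)) (zero_le_one.trans (H.W1 z)))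
  have := div_pos a0 (pow_pos (H.ok.l0 z) 2)
  nlinarith [(H.bd z (k z)).1, sq_nonneg (gn γ W z / W z)]

/-- **ZL** -/
theorem zl {k : ℕ} (hM : MOVE (k + 1)) (hB : BL k) : ZL k := by
  obtain ⟨C, C1, c, c0, hB⟩ := hB
  refine ⟨9 * C, by linarith, c / 64, by positivity, fun a a0 η η0 => ?_⟩
  obtain ⟨θ, θ0, θ1, θ2⟩ : ∃ θ > (0 : ℝ), 2 * θ ≤ η ∧ 2 * θ ≤ a :=
    ⟨min η a / 2, by positivity, by linarith [min_le_left η a], by linarith [min_le_right η a]⟩
  obtain ⟨ε₀, e0, hB⟩ := hB (a - θ) (by linarith) θ θ0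
  refine ⟨ε₀ / 9, by positivity, fun ε ε0 ε1 m m1 l₀ l0 => ?_⟩
  obtain ⟨Γ₀, hS⟩ := shield hM (Q := a * m ^ 2 / l₀ ^ 2) (by positivity)
  refine ⟨Γ₀, fun Γ hΓ Z _ γ β l α D W w h h₁ H => ?_⟩
  have cw := H.smw.cont
  have hD := DD_ge
  have lp := H.ok.l0
  obtain ⟨L, L1, hL⟩ : ∃ L ≥ (1 : ℝ), ∀ z, w z ≤ 11 / 8 → l z ≤ L ∧ ∀ j, |D j z| ≤ L := by
    obtain ⟨L, hL⟩ := H.cpt.exists_bound_of_continuousOn (f := fun z => (l z, fun j => D j z))
      (H.ok.sml.cont.prodMk (continuous_pi fun j => (H.smD j).cont)).continuousOn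
    refine ⟨max 1 L, le_max_left _ _, fun z k => ⟨?_, fun j => ?_⟩⟩
    · exact (le_abs_self _).trans (((norm_fst_le (l z, fun j => D j z)).trans (hL z k)).trans
        (le_max_right _ _))
    · exact ((norm_le_pi_norm (fun j => D j z) j).trans ((norm_snd_le (l z, fun j => D j z)).trans
        (hL z k))).trans (le_max_right _ _)
  obtain ⟨u, β₁, su, R, hu⟩ := hS Γ hΓ H (θ / L ^ 2) (by positivity) (m * DD / (ε / (8 * L ^ 2)))
    (by positivity)
  obtain ⟨m₁, c₁, -⟩ := R.ok H.ok.met H.ok.cc (Up.rfl' γ)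
  obtain ⟨μ, sμ, hμ⟩ := zoom su (gn_gb_self H.ok.met u) (δ := ε / (8 * L ^ 2)) m1 (by positivity)
    (mul_div_cancel₀ _ (by positivity)).ge
  have gl := gn_gb_le H.ok.met u
  have up := up_gb γ u
  dsimp only at m₁ c₁
  generalize gb γ 1 u = γ₁ at *
  generalize m * DD / (ε / (8 * L ^ 2)) = T at *
  have μ0 : ∀ z, 0 < μ z := fun z => one_pos.trans_le (hμ z).1
  obtain ⟨l₁, hl⟩ : ∃ l₁ : Z → ℝ, l₁ = fun z => l z * (μ z)⁻¹ := ⟨_, rfl⟩
  obtain ⟨G, hG⟩ : ∃ G : Fin k → Z → ℝ, G = fun j z => 8 * (μ z * D j z) := ⟨_, rfl⟩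
  have l1 : ∀ z, l₁ z * μ z = l z := fun z => by rw [hl]; exact inv_mul_cancel_right₀ (μ0 z).ne' _
  have l2 : ∀ z, 0 < l₁ z := fun z => hl ▸ mul_pos (lp z) (inv_pos.2 (μ0 z))
  have l3 : ∀ z, l₁ z ≤ l z := fun z => l1 z ▸ le_mul_of_one_le_right (l2 z).le (hμ z).1
  have si : Smooth fun z => (μ z)⁻¹ :=
    cd_of_cAt le_rfl fun z => (CD.contDiffAt sμ).inv (μ0 z).ne'
  have sl : Smooth l₁ := hl ▸ CD.mul H.ok.sml si
  have sG : ∀ j, Smooth (G j) := fun j => hG ▸ CD.mul cd_const (CD.mul sμ (H.smD j))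
  have nG : ∀ z, nsq G z = 64 * (μ z ^ 2 * nsq D z) := fun z => by
    simp only [nsq, hG, Finset.mul_sum]
    exact Finset.sum_congr rfl fun _ _ => by ring
  have n0 : ∀ z, 0 ≤ nsq D z := fun z => Finset.sum_nonneg fun _ _ => sq_nonneg _
  have n1 : ∀ z, 64 * nsq D z ≤ nsq G z := fun z => by
    rw [nG]
    nlinarith [mul_le_mul_of_nonneg_right (one_le_pow₀ (hμ z).1 (n := 2)) (n0 z)]
  have n2 : ∀ z, 9 / 8 ≤ w z → μ z = m ∧ 64 ≤ nsq G z := fun z k => by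
    have e := (hμ z).2.2.2.1 ((hu z).1 k)
    rw [nG, e]
    exact ⟨rfl, by linarith [H.far z (by linarith)]⟩
  have k1 : ∀ z ∈ K4 G {z | 0 < α z}, w z ≤ 9 / 8 := fun z k => not_lt.1 fun q => by
    linarith [(n2 z q.le).2, k.2]
  have cK : IsCompact (K4 G {z | 0 < α z}) := by
    have e : K4 G {z | 0 < α z} = {z | w z ≤ 9 / 8} ∩ ({z | 1 / 2 ≤ α z} ∩ {z | nsq G z ≤ 4}) := by
      ext z
      refine ⟨fun q => ⟨k1 z q, H.sep z (by linarith [k1 z q]) q.1 (by linarith [n1 z, q.2]), q.2⟩,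
        fun q => ⟨lt_of_lt_of_le (by norm_num) (show 1 / 2 ≤ α z from q.2.1), q.2.2⟩⟩
    rw [e]
    exact H.cpt.of_isClosed_subset ((isClosed_le cw continuous_const).inter ((isClosed_le
      continuous_const H.smα.cont).inter (isClosed_le (continuous_finset_sum _ fun j _ =>
        (sG j).cont.pow 2) continuous_const))) fun z q => le_trans (show w z ≤ 9 / 8 from q.1)
          (by norm_num)
  have lθ : ∀ z, w z ≤ 11 / 8 → l z ^ 2 * (θ / L ^ 2) ≤ θ := fun z k => by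
    rw [← mul_div_assoc, div_le_iff₀ (by positivity), mul_comm]
    exact mul_le_mul_of_nonneg_left (pow_le_pow_left₀ (lp z).le (hL z k).1 2) θ0.le
  have V1 : ∀ z, w z ≤ 11 / 8 → (a - η) / l z ^ 2 ≤ a / l z ^ 2 - θ / L ^ 2 := fun z k => by
    rw [div_le_iff₀' (pow_pos (lp z) 2), mul_sub, mul_div_cancel₀ _ (pow_pos (lp z) 2).ne']
    linarith [lθ z k]
  have bd : ∀ z, w z ≤ 11 / 8 → a - θ ≤ l₁ z ^ 2 * Rv γ₁ β₁ z ∧ gn γ₁ l₁ z ≤ 9 * ε ∧
      ∀ j, l₁ z * gn γ₁ (G j) z ≤ 9 * ε := fun z k => by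
    obtain ⟨a1, a2, a3, -, a5⟩ := hμ z
    obtain ⟨-, b2, b3, b4⟩ := H.bd z k
    have g0 := gn_nonneg γ₁ μ z
    have lz := lp z
    have gμ : L * (L * gn γ₁ μ z) ≤ ε / 8 := by
      rw [le_div_iff₀ (by positivity)] at a5
      linarith
    have p2 : l z ^ 2 * (a / l z ^ 2) = a := mul_div_cancel₀ _ (by positivity)
    refine ⟨?_, ?_, fun j => ?_⟩
    · rcases le_total T (u z) with q | q
      · have := mul_le_mul_of_nonneg_left ((hu z).2 k).1 (sq_nonneg (l z))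
        rw [← l1 z, a3 q, mul_one] at this
        have e := l1 z
        rw [a3 q, mul_one] at e
        rw [e] at this ⊢
        linarith [lθ z k]
      · have t1 := mul_le_mul_of_nonneg_left (((hu z).2 k).2 q) (sq_nonneg (l z))
        have t2 : a * μ z ^ 2 ≤ l z ^ 2 * (a * m ^ 2 / l₀ ^ 2) := by
          rw [← mul_div_assoc, le_div_iff₀ (by positivity), mul_comm (l z ^ 2)]
          gcongr
        refine le_of_mul_le_mul_right ?_ (pow_pos (μ0 z) 2)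
        rw [mul_right_comm, ← mul_pow, l1]
        nlinarith [lθ z k, sq_nonneg (μ z)]
    · have i1 : (μ z)⁻¹ ≤ 1 := inv_le_one_of_one_le₀ a1
      have i0 : 0 < (μ z)⁻¹ := inv_pos.2 (μ0 z)
      have := gn_lin (u := l₁) m₁ fun i => show pd i l₁ z = (μ z)⁻¹ * pd i l z +
          l z * -(μ z ^ 2)⁻¹ * pd i μ z by
        rw [hl, pd_mul (H.ok.sml.diff z) (si.diff z),
          pd_comp (φ := fun t => t⁻¹) (hasDerivAt_inv (μ0 z).ne') (sμ.diff z)]
        ring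
      rw [abs_of_pos i0, abs_mul, abs_neg, abs_of_pos lz, abs_of_pos (by positivity),
        ← inv_pow] at this
      have t1 := mul_le_mul i1 ((gl l z).trans b3) (gn_nonneg _ _ _) zero_le_one
      have t2 : l z * (μ z)⁻¹ ^ 2 * gn γ₁ μ z ≤ L * L * gn γ₁ μ z := mul_le_mul_of_nonneg_right
        (mul_le_mul (hL z k).1 ((pow_le_one₀ i0.le i1).trans L1) (by positivity) (by linarith)) g0
      linarith
    · have := gn_lin (u := G j) m₁ fun i => show pd i (G j) z = 8 * μ z * pd i (D j) z +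
          8 * D j z * pd i μ z by
        simp only [hG]
        rw [pd_const_mul, pd_mul (sμ.diff z) ((H.smD j).diff z)]
        ring
      rw [abs_of_pos (mul_pos (by norm_num) (μ0 z)), abs_mul, abs_of_pos (by norm_num : (0 : ℝ) < 8)]
        at this
      have t0 := mul_le_mul_of_nonneg_left this (l2 z).le
      have t1 := (mul_le_mul_of_nonneg_left (gl (D j) z) lz.le).trans (b4 j)
      have t2 : l₁ z * (|D j z| * gn γ₁ μ z) ≤ L * (L * gn γ₁ μ z) := mul_le_mul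
        ((l3 z).trans (hL z k).1) (mul_le_mul_of_nonneg_right ((hL z k).2 j) g0) (by positivity)
        (by linarith)
      rw [← l1 z] at t1
      nlinarith
  obtain ⟨γ', β', l', G', o⟩ := hB (9 * ε) (by positivity) (by linarith) Z γ₁ β₁ l₁ G {z | 0 < α z}
    ⟨⟨m₁, c₁, sl, l2⟩, sG, isOpen_lt continuous_const H.smα.cont, cK,
      fun z q => bd z (by linarith [k1 z q])⟩
  have nE : ∀ z, nsq (fun j z => 8⁻¹ * G' j z) z = nsq G' z / 64 := fun z => by
    simp only [nsq, Finset.sum_div]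
    exact Finset.sum_congr rfl fun _ _ => by ring
  have eG : ∀ z, z ∉ {z | 0 < α z} ∨ 1 ≤ nsq G z → ∀ j, 8⁻¹ * G' j z = μ z * D j z :=
    fun z q j => by rw [o.eqG z q j, hG]; ring
  have ε9 : 9 * ε ≤ C * (9 * ε) := le_mul_of_one_le_left (by positivity) C1
  refine ⟨γ', β', l', fun j z => 8⁻¹ * G' j z, (R.mono fun z (q : w z ≤ 5 / 4) =>
    V1 z (by linarith)).trans ((o.rch.base up).enl cK.isClosed
      (fun z q => le_trans (k1 z q) (by norm_num)) (fun z q => ?_) fun z (q : w z ≤ 5 / 4) _ =>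
        (V1 z (by linarith)).trans ((hu z).2 (by linarith)).1), o.sml, o.l0,
    fun j => CD.mul cd_const (o.smG j), fun z q => ?_, fun z q => ?_,
    fun z _ q => by rw [nE]; linarith [o.low z q], fun z _ q => ⟨μ z, (hμ z).1,
      eG z (q.imp (fun q => not_lt.2 q) fun q => by linarith [n1 z])⟩⟩
  · exact div_le_div₀ (by linarith) (by linarith) (pow_pos (l2 z) 2)
      (pow_le_pow_left₀ (l2 z).le (l3 z) 2)
  · obtain ⟨e1, e2⟩ := n2 z (by linarith)
    refine ⟨?_, fun j => e1 ▸ eG z (Or.inr (by linarith)) j⟩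
    rw [o.off z fun p => by linarith [k1 z p], hl, ← e1, div_eq_mul_inv]
  have fin : a - θ - θ ≤ l' z ^ 2 * Rv γ' β' z ∧ l' z ≤ C * l₁ z ∧ gn γ' l' z ≤ C * (9 * ε) ∧
      ∀ j, l' z * gn γ' (G' j) z ≤ C * (9 * ε) := by
    by_cases p : z ∈ K4 G {z | 0 < α z}
    · exact o.bd z p
    have ev := cK.isClosed.isOpen_compl.mem_nhds p
    have e1 := (o.rch.same z p).1
    obtain ⟨b1, b2, b3⟩ := bd z q
    rw [← o.rch.same.Rv_eq cK.isClosed p, gn_congr (eventually_of_mem ev o.off), o.off z p,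
      ← gn_of_eq e1]
    refine ⟨by linarith, le_mul_of_one_le_left (l2 z).le C1, b2.trans ε9, fun j => ?_⟩
    rw [← gn_of_eq e1, gn_congr (eventually_of_mem ev fun y r => o.eqG y ((em _).symm.imp id
      fun s => by linarith [not_le.1 fun t => r ⟨s, t⟩]) j)]
    exact (b3 j).trans ε9
  refine ⟨by linarith [fin.1], by nlinarith [fin.2.1, l3 z, lp z], by linarith [fin.2.2.1],
    fun j => ?_⟩
  rw [gn_of_pd (pd_const_mul _), abs_of_pos (by norm_num)]
  nlinarith [fin.2.2.2 j]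

end Vale.Agent.P210H
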