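import Vale.Agent.P210H.Shd

/-!
# P210H: the Hardy weight and the shield of a small compact set, on graphs and on hypersurfaces
-/

open Real Topology Set
open Filter hiding ker
open scoped ContDiff
open Vale.Agent.P366M Vale.Agent.P366M.Gr Vale.Agent.P366M.Y.C Vale.Agent.P366D Vale.Agent.P210G
open Vale.Agent.P366H hiding Sq gn_sum

noncomputable section

namespace Vale.Agent.P210H

/-- the inequalities for the weight `W` and the shield `h` on `{w < 1}`, at a point -/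
structure Pw {d : ℕ} {N : Type} [Mf0 d N] (γ : Fld d N) (B Γ ε θ h₁ : ℝ) (W w h : N → ℝ) (x : N) :
    Prop where
  sup : lap γ W x + B * gn γ W x ≤ ε - Γ * (W x - 1)
  pos : w x < 1 → -ε ≤ (gn γ W x / W x) ^ 2 / 2 + h x ^ 2 - 2 * gn γ h x
  big : w x < 1 → h₁ ≤ h x → gn γ h x ≤ θ * h x ^ 2

variable {k : ℕ} {Y : Type} [Mf0 (k + 1) Y]

/-- the Hardy weight `W`, the second potential `w` and the shield `h` of the set `S`, trivial
outside the compact set `C` -/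
structure Hdy (g : Fld (k + 1) Y) (S C : Set Y) (B Γ ε θ T h₁ : ℝ) (W w h : Y → ℝ) : Prop where
  smW : Smooth W
  smw : Smooth w
  smh : ∀ x, w x < 1 → CAt ∞ h x
  W1 : ∀ x, 1 ≤ W x
  w0 : ∀ x, 0 ≤ w x
  h0 : ∀ x, w x < 1 → 0 ≤ h x
  cpt : IsCompact C
  out : ∀ x ∉ C, W x = 1 ∧ w x = 0 ∧ h x = 0
  low : ∀ x, W x ≤ 2 → h x = 0
  inn : ∀ x ∈ S, 2 ≤ w x
  lrg : ∀ x, T * w x ≤ W x
  cls : ∀ c, ∃ a < 1, ∀ x, w x < 1 → h x ≤ c → w x ≤ a
  gph : ∀ u, Smooth u → ∀ x, |dv g (nv g u) x| ≤ B → Pw (gb g 1 u) B Γ ε θ h₁ W w h x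
  sub : ∀ (Z : Type) [Mf0 k Z] (ι : Z → Y), Met (pull ι g) → Mc g ι B → ∀ z, SmM ι z →
    Pw (pull ι g) B Γ ε θ h₁ (fun z => W (ι z)) (fun z => w (ι z)) (fun z => h (ι z)) z

/-- **HARDY** -/
theorem hardy (hk : 1 ≤ k) {g : Fld (k + 1) Y} (hg : Met g) {S U : Set Y} (cS : IsCompact S)
    (nul : ∀ e ∈ At Y, Null ((k : ℝ) - 15 / 4) (e.symm ⁻¹' S)) (hU : IsOpen U) (hS : S ⊆ U)
    {B ε θ : ℝ} (hB : 0 ≤ B) (Γ T : ℝ) (hv : 0 < ε) (hθ : 0 < θ) :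
    ∃ C ⊆ U, ∃ h₁ W w h, Hdy g S C B Γ ε θ T h₁ W w h := by
  have k0 : (0 : ℝ) < k := by exact_mod_cast hk
  have hD := DD_ge
  have c0p := c0_pos k
  haveI : LocallyCompactSpace Y := ChartedSpace.locallyCompactSpace (P366.Stmt.E (k + 1)) Y
  obtain ⟨C, cC, hC, hCU⟩ := exists_compact_between cS hU hS
  obtain ⟨r₀, r0, H⟩ := cover hg (η := 1 / (32 * k)) (U := C) (by positivity) cS
    (fun p hp => mem_interior_iff_mem_nhds.1 (hC hp)) nul
  obtain ⟨r, rp, rr, r1, r2⟩ : ∃ r > (0 : ℝ), r ≤ r₀ ∧ r * (96 * B) ≤ 1 ∧ Γ ≤ 1 / (10 * r ^ 2) := by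
    have g0 := abs_nonneg Γ
    set L := 96 * B + 10 * |Γ| + 1 with hL
    have L0 : 1 ≤ L := by linarith
    have a : min r₀ (1 / L) * L ≤ 1 := (le_div_iff₀ (by positivity)).1 (min_le_right _ _)
    have b : 0 < min r₀ (1 / L) := by positivity
    refine ⟨_, b, min_le_left _ _, by nlinarith, ?_⟩
    generalize min r₀ (1 / L) = r at a b
    rw [le_div_iff₀ (by positivity)]
    have c : r ≤ 1 := by nlinarith
    have e : r * (10 * |Γ|) ≤ 1 := by nlinarith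
    have f : Γ * (10 * r ^ 2) ≤ |Γ| * (10 * r ^ 2) :=
      mul_le_mul_of_nonneg_right (le_abs_self _) (by positivity)
    nlinarith [mul_nonneg b.le g0]
  obtain ⟨e, he, hev⟩ : ∃ e > (0 : ℝ), 16200 * (e * DD) ^ 2 ≤ ε := by
    refine ⟨√(ε / 16200) / DD, by positivity, le_of_eq ?_⟩
    rw [div_mul_cancel₀ _ (by linarith), sq_sqrt (by positivity)]; ring
  set θ' := min (θ / 2) (1 / 200) with hθ'
  have θ0 : 0 < θ' := lt_min (by linarith) (by norm_num)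
  have t1 : Tendsto (fun δ : ℝ => δ ^ (-(3 / 2) : ℝ) * (c0 k / 4)) (𝓝[>] 0) atTop :=
    (tendsto_rpow_neg_nhdsGT_zero (by norm_num : (-(3 / 2) : ℝ) < 0)).atTop_mul_const (by linarith)
  have t2 := (tendsto_rpow_atTop (by norm_num : (0 : ℝ) < 1 / 30)).comp t1
  have t3 : ∀ᶠ δ : ℝ in 𝓝[>] 0, δ < min 1 (min (r / 2) (ε / (|CE k r| + 1))) :=
    nhdsWithin_le_nhds (gt_mem_nhds (by positivity))
  obtain ⟨δ, ⟨⟨h3, h4⟩, h5⟩, δ0⟩ := ((((t1.eventually_ge_atTop (max 3 T)).and (t2.eventually_ge_atTop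
    (DD * (8 / c0 k) * (CG k r + 4 * |kk k|) / (e * θ')))).and t3).and self_mem_nhdsWithin).exists
  obtain ⟨δ1, h6⟩ := lt_min_iff.1 h5
  obtain ⟨δr, δv⟩ := lt_min_iff.1 h6
  obtain ⟨h3, h3'⟩ := max_le_iff.1 h3
  have δ0' : 0 < δ := δ0
  obtain ⟨J, _, s, Q, rad, hQ, cov⟩ := H r rp rr δ δ0
  have nn : ∀ x j, 0 ≤ Q j x := fun x j => (hQ j).1.nn _
  have sm : ∀ x j, CAt ∞ (Q j) x := fun x j => CD.contDiffAt (hQ j).1.sm
  have lt : ∀ t : ℝ, 2 / c0 k * t < 1 ↔ t < c0 k / 2 := fun t => by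
    rw [div_mul_eq_mul_div, div_lt_one c0p, lt_div_iff₀' two_pos]
  have key : ∀ {d : ℕ} {N : Type} [Mf0 d N] {γ : Fld d N} {q : J → N → ℝ} {x : N}, Met γ →
      Sq k γ r B q x → Pw γ B Γ ε θ (max 1 ((9 * e * DD + 1) * YY k r s * (2 / θ)))
        (fun y => WW k r s fun j => q j y) (fun y => 2 / c0 k * w2 k r s fun j => q j y)
        (fun y => hs k r e (c0 k / 2) s fun j => q j y) x := fun {d N _ γ q x} hγ h => by
    have a := fun hw => h.shd hγ rad δ1 rp he hev hθ θ0 (min_le_right _ _) (min_le_left _ _) h3 h4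
      ((lt _).1 hw)
    refine ⟨(h.sup hγ rad δ1 rp δr.le hB).trans ?_, fun hw => (a hw).1, fun hw => (a hw).2⟩
    have b := mul_le_mul_of_nonneg_right r2 (sub_nonneg.2 (one_le_WW (m := k) (r := r) rad.pos h.nn))
    rw [lt_div_iff₀ (by positivity)] at δv
    rw [one_div_mul_eq_div] at b
    nlinarith
  refine ⟨C, hCU, _, fun x => WW k r s fun j => Q j x, fun x => 2 / c0 k * w2 k r s fun j => Q j x,
    fun x => hs k r e (c0 k / 2) s fun j => Q j x,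
    cd_of_cAt le_rfl fun x => cA_WW rad.pos (sm x) (nn x),
    cd_of_cAt le_rfl fun x => cAt_const.mul (cA_w2 rad.pos (sm x) (nn x)),
    fun x h => cA_hs rad.pos (sm x) (nn x) (by linarith) ((lt _).1 h),
    fun x => one_le_WW rad.pos (nn x), fun x => mul_nonneg (by positivity) (w2_nn rad.pos (nn x)),
    fun x h => hs_nn rad.pos (nn x) he.le (by linarith) ((lt _).1 h), cC, fun x hx => ?_,
    fun x hx => ?_, fun x hx => ?_, fun x => ?_, fun c => ?_,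
    fun u hu x hx => key (met_g hg hu) (sq_graph hk hg (fun j => (hQ j).1) rp hB r1 hu hx),
    fun Z _ ι hZ mc z hz => key hZ (sq_sub hk hg (fun j => (hQ j).1) rp hB r1 hZ mc hz)⟩
  · obtain ⟨a1, a2, a3⟩ := out_eq (m := k) (s := s) rp (z := fun j => Q j x)
      (fun j => (half_le_self (sq_nonneg r)).trans ((hQ j).2 _ hx)) e (c0 k / 2)
    exact ⟨a1, mul_eq_zero_of_right _ a2, a3⟩
  · show e * bet _ * _ = 0
    rw [bet_zero hx, mul_zero, zero_mul]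
  · obtain ⟨j, hj⟩ := cov x ⟨hx, hx⟩
    have a := mul_le_mul_of_nonneg_left (in_ge rad δ1 rp δr.le (nn x) hj)
      (by positivity : 0 ≤ 2 / c0 k)
    rwa [div_mul_cancel₀ _ c0p.ne'] at a
  · refine le_trans ?_ (WW_ge rad (nn x))
    rw [← mul_assoc]
    refine mul_le_mul_of_nonneg_right ?_ (w2_nn rad.pos (nn x))
    rw [← mul_div_assoc, div_le_iff₀ c0p]
    have : 0 < δ ^ (-(3 / 2) : ℝ) * c0 k := mul_pos (rpow_pos_of_pos δ0' _) c0p
    linarith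
  · obtain ⟨K', k1, k2, k3⟩ := proper_aux (m := k) he (by linarith : c0 k / 4 < c0 k / 2) c
    refine ⟨2 / c0 k * K', (lt _).2 k1, fun x hw hT => mul_le_mul_of_nonneg_left ?_ (by positivity)⟩
    by_contra hc
    have hc' := not_le.1 hc
    have hw' := (lt _).1 hw
    linarith [k3 _ hc' hw', hs_ge rad δ0' (nn x) he (by linarith) h3 hw' (k2.trans hc'.le)]

/-! ### the change of the drift -/

variable {d : ℕ} {N : Type} [Mf0 d N] {γ : Fld d N} {v a : Fin d → N → ℝ} {x : N} {B : ℝ}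

theorem iv_df_le (hγ : Met γ) (hB : 0 ≤ B) (hv : iv γ v v x ≤ B ^ 2) (W : N → ℝ) :
    |iv γ v (df W) x| ≤ B * gn γ W x := by
  refine abs_le_of_sq_le_sq' ((iv_cs hγ v (df W) x).trans ?_) (mul_nonneg hB (gn_nonneg _ _ _)) |>
    abs_le.2
  rw [mul_pow, hγ.gn_sq, iv_df]
  exact mul_le_mul_of_nonneg_right hv (hγ.ip_nonneg W x)

theorem Lv_log_le (hγ : Met γ) (hB : 0 ≤ B) (hv : iv γ v v x ≤ B ^ 2) {W : N → ℝ} {e : ℝ}
    (hW : CAt 2 W x) (h1 : 1 ≤ W x) (hs : lap γ W x + B * gn γ W x ≤ e) :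
    Lv γ (fun i y => v i y + a i y) (fun y => log (W y)) x ≤
      e / W x - (gn γ W x / W x) ^ 2 - iv γ a (df fun y => log (W y)) x := by
  have W0 : 0 < W x := by linarith
  have e1 : iv γ a (df fun y => log (W y)) x = iv γ a (df W) x / W x := by
    rw [iv_smul (s := 1) (t := (W x)⁻¹) (a := a) (b := df W) (fun _ => (one_mul _).symm)
      fun i => by simp only [df, pd_log (diff2 hW) W0.ne']; ring]
    ring
  rw [Lv_log hγ hW W0, e1, div_pow, hγ.gn_sq, Lv,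
    iv_lin (s := 1) (t := 1) (b := v) (c := a) (by simp)]
  have := div_le_div_of_nonneg_right (show lap γ W x - iv γ v (df W) x ≤ e by
    linarith [(abs_le.1 (iv_df_le hγ hB hv W)).1]) W0.le
  rw [sub_div] at this
  rw [sub_div, add_div, one_mul, one_mul]
  linarith

/-- **two Hardy weights**: the bounded part `v` of the drift is absorbed by the weights, the part
`a` is paid by `|a|²` -/
theorem Rv_hardy (hγ : Met γ) (hB : 0 ≤ B) (hv : iv γ v v x ≤ B ^ 2)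
    (hd : DV (sh γ fun i y => v i y + a i y) x) {W₁ W₂ : N → ℝ} {e₁ e₂ c₁ c₂ : ℝ}
    (hW₁ : CAt 2 W₁ x) (hW₂ : CAt 2 W₂ x) (h₁ : 1 ≤ W₁ x) (h₂ : 1 ≤ W₂ x) (p₁ : 0 ≤ c₁)
    (p₂ : 0 ≤ c₂) (s₁ : lap γ W₁ x + B * gn γ W₁ x ≤ e₁) (s₂ : lap γ W₂ x + B * gn γ W₂ x ≤ e₂) :
    Rv γ (fun i y => v i y + a i y) x - iv γ a a x - 2 * c₁ * (e₁ / W₁ x) - 2 * c₂ * (e₂ / W₂ x) +
        2 * (1 - c₁ - c₂) * (c₁ * (gn γ W₁ x / W₁ x) ^ 2 + c₂ * (gn γ W₂ x / W₂ x) ^ 2) ≤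
      Rv γ (fun i y => v i y + a i y + -1 *
        pd i (fun z => c₁ * log (W₁ z) + c₂ * log (W₂ z)) y) x := by
  have l₁ : CAt 2 (fun z => log (W₁ z)) x := hW₁.log (by linarith)
  have l₂ : CAt 2 (fun z => log (W₂ z)) x := hW₂.log (by linarith)
  set L₁ := fun z => log (W₁ z)
  set L₂ := fun z => log (W₂ z)
  have hp : ∀ i, df (fun z => c₁ * L₁ z + c₂ * L₂ z) i x = c₁ * df L₁ i x + c₂ * df L₂ i x :=
    fun i => by
      simp only [df]
      rw [pd_add ((diff2 l₁).const_mul _) ((diff2 l₂).const_mul _), pd_const_mul, pd_const_mul]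
  have n₁ : ip γ L₁ L₁ x = (gn γ W₁ x / W₁ x) ^ 2 := by
    rw [ip_comp (hasDerivAt_log (by linarith)) (hasDerivAt_log (by linarith)) (diff2 hW₁)
      (diff2 hW₁), div_pow, hγ.gn_sq]; ring
  have n₂ : ip γ L₂ L₂ x = (gn γ W₂ x / W₂ x) ^ 2 := by
    rw [ip_comp (hasDerivAt_log (by linarith)) (hasDerivAt_log (by linarith)) (diff2 hW₂)
      (diff2 hW₂), div_pow, hγ.gn_sq]; ring
  have a₁ := mul_le_mul_of_nonneg_left (Lv_log_le (a := a) hγ hB hv hW₁ h₁ s₁) p₁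
  have a₂ := mul_le_mul_of_nonneg_left (Lv_log_le (a := a) hγ hB hv hW₂ h₂ s₂) p₂
  have e1 : Lv γ (fun i y => v i y + a i y) (fun z => c₁ * L₁ z + c₂ * L₂ z) x =
      c₁ * Lv γ (fun i y => v i y + a i y) L₁ x + c₂ * Lv γ (fun i y => v i y + a i y) L₂ x := by
    rw [Lv, Lv, Lv, hγ.lap_lin l₁ l₂, iv_lin' hp]; ring
  have e2 := two_iv_le hγ a (df fun z => c₁ * L₁ z + c₂ * L₂ z) x one_pos
  have e3 : iv γ (df fun z => c₁ * L₁ z + c₂ * L₂ z) (df fun z => c₁ * L₁ z + c₂ * L₂ z) x ≤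
      (c₁ + c₂) * (c₁ * (gn γ W₁ x / W₁ x) ^ 2 + c₂ * (gn γ W₂ x / W₂ x) ^ 2) := by
    have b := two_iv_le hγ (df L₁) (df L₂) x one_pos
    have b' := mul_le_mul_of_nonneg_left ((le_abs_self _).trans (le_div_iff₀' two_pos |>.2 b))
      (mul_nonneg p₁ p₂)
    rw [iv_sq hγ hp]
    simp only [iv_df, n₁, n₂] at b' ⊢
    linarith
  rw [Rv_add_df hγ hd ((cAt_const.mul l₁).add (cAt_const.mul l₂)), e1, ← iv_df]
  have e4 := neg_abs_le (iv γ a (df fun z => c₁ * L₁ z + c₂ * L₂ z) x)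
  rw [iv_lin' hp] at e2 e4
  linarith

end Vale.Agent.P210H
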