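import Vale.Agent.P366H.Shm
import Vale.Agent.P210G.Gid

/-!
# P210H: the Hardy weight is a strict supersolution, pointwise
-/

open Real Topology Set
open Filter hiding ker
open scoped ContDiff
open Vale.Agent.P366M Vale.Agent.P366M.Gr Vale.Agent.P366M.Y.C Vale.Agent.P366D
open Vale.Agent.P366H hiding Sq

noncomputable section

namespace Vale.Agent.P210H

variable {m : ℕ} {r s q : ℝ}

theorem ker1_le (hs : 0 < s) (hq : 0 ≤ q) :
    ker1 m r s q ≤ -(kk m / 2) * (ker m r s q / (q + s ^ 2)) := by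
  have hρ : 0 < q + s ^ 2 := by positivity
  have e1 : (q + s ^ 2) ^ (-(kk m / 2) - 1) = pw m s q / (q + s ^ 2) := rpow_sub_one hρ.ne' _
  have h1 := mul_nonpos_of_nonneg_of_nonpos (rpow_pos_of_pos hs (kk m)).le
    (mul_nonpos_of_nonpos_of_nonneg (kap1_np r q) (pw_pos (m := m) hs hq).le)
  unfold ker1 P366H.ker
  rw [e1]
  refine le_of_sub_nonpos (le_of_eq_of_le ?_ h1)
  ring

theorem ker1_np (hk : 0 ≤ kk m) (hs : 0 < s) (hq : 0 ≤ q) : ker1 m r s q ≤ 0 :=
  (ker1_le hs hq).trans (mul_nonpos_of_nonpos_of_nonneg (by linarith)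
    (div_nonneg (ker_nn hs hq) (by positivity)))

theorem ker_gain (hm : 4 ≤ m) (hr : 0 < r) (hs : 0 < s) (hsr : s ≤ r / 2) (hq : 0 ≤ q) {L G : ℝ}
    (hG : 0 ≤ G) (h : q < r ^ 2 → G ≤ (4 + 1 / (2 * m)) * q ∧ 2 * m - 1 / 8 ≤ L) :
    ker1 m r s q * L + ker2 m r s q * G ≤ s ^ kk m * CE m r - ker m r s q / (10 * r ^ 2) := by
  have h4 : (4 : ℝ) ≤ m := by exact_mod_cast hm
  have hk : 7 / 4 ≤ kk m := by unfold kk; linarith
  have h1 := ker_lap (m := m) (L := L - 1 / 8) (by linarith) hr hs hq hG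
    fun a => ⟨(h a).1, by linarith [(h a).2]⟩
  have h2 : ker1 m r s q / 8 ≤ -(ker m r s q / (10 * r ^ 2)) := by
    by_cases h3 : r ^ 2 / 2 ≤ q
    · have := ker1_np (m := m) (r := r) (by linarith) hs hq
      rw [ker_zero hr h3]
      simp only [zero_div, neg_zero]
      linarith
    have k0 := ker_nn (m := m) (r := r) hs hq
    have a : ker m r s q / r ^ 2 ≤ ker m r s q / (q + s ^ 2) :=
      div_le_div_of_nonneg_left k0 (by positivity) (by nlinarith)
    have b := ker1_le (m := m) (r := r) hs hq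
    have c : 0 ≤ ker m r s q / r ^ 2 := by positivity
    have e : ker m r s q / (10 * r ^ 2) = ker m r s q / r ^ 2 / 10 := by field_simp
    rw [e]
    nlinarith
  linarith

variable {d : ℕ} {N : Type} [Mf0 d N] {γ : Fld d N} {x : N} {J : Type}

theorem lap_sum (hγ : Met γ) (t : Finset J) (c : J → ℝ) {u : J → N → ℝ}
    (hu : ∀ j, CAt 2 (u j) x) :
    lap γ (fun y => ∑ j ∈ t, c j * u j y) x = ∑ j ∈ t, c j * lap γ (u j) x := by
  classical
  induction t using Finset.induction_on with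
  | empty => simp [lap_const]
  | insert a t ha ih =>
    have h2 : CAt 2 (fun y => ∑ j ∈ t, c j * u j y) x :=
      ContDiffAt.sum fun j _ => contDiffAt_const.mul (hu j)
    simp only [Finset.sum_insert ha]
    rw [← ih, hγ.lap_add (cAt_const.mul (hu a)) h2, lap_const_mul]

theorem gn_sum (hγ : Met γ) (t : Finset J) {c : J → ℝ} (hc : ∀ j, 0 ≤ c j) {u : J → N → ℝ}
    (hu : ∀ j, DAt (u j) x) :
    gn γ (fun y => ∑ j ∈ t, c j * u j y) x ≤ ∑ j ∈ t, c j * gn γ (u j) x := by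
  classical
  induction t using Finset.induction_on with
  | empty => simp [gn_zero fun i => pd_const (0 : ℝ) i x]
  | insert a t ha ih =>
    have h2 : DAt (fun y => ∑ j ∈ t, c j * u j y) x :=
      DifferentiableAt.fun_sum fun j _ => (hu j).const_mul _
    simp only [Finset.sum_insert ha]
    refine (hγ.gn_add_le (pd_add ((hu a).const_mul _) h2)).trans (add_le_add (le_of_eq ?_) ih)
    rw [gn_of_pd (pd_const_mul _), abs_of_nonneg (hc a)]

/-- the conditions on the squared distances at the point `x` -/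
structure Sq (m : ℕ) (γ : Fld d N) (r B : ℝ) (q : J → N → ℝ) (x : N) : Prop where
  c2 : ∀ j, CAt 2 (q j) x
  nn : ∀ j, 0 ≤ q j x
  gr : ∀ j, q j x < r ^ 2 → ip γ (q j) (q j) x ≤ (4 + 1 / (2 * m)) * q j x
  lp : ∀ j, q j x < r ^ 2 → 2 * m - 1 / 8 + B * gn γ (q j) x ≤ lap γ (q j) x

variable [Fintype J] {σ : J → ℝ} {Q : J → N → ℝ} {δ B : ℝ}

theorem Sq.sup (hγ : Met γ) (h : Sq m γ r B Q x) (hs : Rad m δ σ) (hδ : δ < 1) (hr : 0 < r)
    (hδr : δ ≤ r / 2) (hB : 0 ≤ B) :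
    lap γ (fun y => WW m r σ fun j => Q j y) x + B * gn γ (fun y => WW m r σ fun j => Q j y) x ≤
      δ * |CE m r| - (WW m r σ (fun j => Q j x) - 1) / (10 * r ^ 2) := by
  have ρ : ∀ j, 0 < Q j x + σ j ^ 2 := fun j => by have := h.nn j; have := hs.pos j; positivity
  have c : ∀ j, CAt 2 (fun y => ker m r (σ j) (Q j y)) x := fun j =>
    (sm_ker (k := 2) (ρ j)).compM (h.c2 j)
  have p : ∀ j, 0 ≤ σ j ^ (-(3 / 2) : ℝ) := fun j => (rpow_pos_of_pos (hs.pos j) _).le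
  have e1 : lap γ (fun y => WW m r σ fun j => Q j y) x =
      ∑ j, σ j ^ (-(3 / 2) : ℝ) * lap γ (fun y => ker m r (σ j) (Q j y)) x := by
    rw [← lap_sum hγ _ _ c]
    simp only [WW, add_comm (1 : ℝ), lap_add_const]
  have e2 : gn γ (fun y => WW m r σ fun j => Q j y) x ≤
      ∑ j, σ j ^ (-(3 / 2) : ℝ) * gn γ (fun y => ker m r (σ j) (Q j y)) x := by
    refine le_trans (le_of_eq ?_) (gn_sum hγ _ p fun j => diff2 (c j))
    unfold WW
    rw [gn_of_pd (s := 1) (u' := fun y => ∑ j, σ j ^ (-(3 / 2) : ℝ) * ker m r (σ j) (Q j y))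
      (fun i => by rw [pd_const_add, one_mul]), abs_one, one_mul]
  have e3 : ∀ j, σ j ^ (-(3 / 2) : ℝ) * lap γ (fun y => ker m r (σ j) (Q j y)) x +
      B * (σ j ^ (-(3 / 2) : ℝ) * gn γ (fun y => ker m r (σ j) (Q j y)) x) ≤
      σ j ^ ((m : ℝ) - 15 / 4) * |CE m r| -
        σ j ^ (-(3 / 2) : ℝ) * ker m r (σ j) (Q j x) / (10 * r ^ 2) := fun j => by
    have a := ker_gain (hs.four hδ j) hr (hs.pos j) ((hs.le j).trans hδr) (h.nn j)
      (hγ.ip_nonneg (Q j) x) (L := lap γ (Q j) x - B * gn γ (Q j) x)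
      fun hh => ⟨h.gr j hh, by linarith [h.lp j hh]⟩
    rw [hγ.lap_comp (h.c2 j) (sm_ker (k := 2) (ρ j)), d_ker (ρ j), dd_ker (ρ j),
      gn_comp (hd_ker (ρ j)) (diff2 (h.c2 j)),
      abs_of_nonpos (ker1_np (hs.kk hδ j) (hs.pos j) (h.nn j))]
    have b := mul_le_mul_of_nonneg_left a (p j)
    have e : σ j ^ (-(3 / 2) : ℝ) * σ j ^ kk m = σ j ^ ((m : ℝ) - 15 / 4) := by
      rw [← rpow_add (hs.pos j)]; congr 1; unfold kk; ring
    have f := mul_le_mul_of_nonneg_left (le_abs_self (CE m r))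
      (rpow_pos_of_pos (hs.pos j) ((m : ℝ) - 15 / 4)).le
    rw [mul_sub (σ j ^ (-(3 / 2) : ℝ)), ← mul_assoc, e, ← mul_div_assoc] at b
    linarith
  have e4 := Finset.sum_le_sum fun j (_ : j ∈ Finset.univ) => e3 j
  rw [Finset.sum_add_distrib, Finset.sum_sub_distrib, ← Finset.mul_sum, ← Finset.sum_mul,
    ← Finset.sum_div, ← e1] at e4
  have e5 := mul_le_mul_of_nonneg_left e2 hB
  have e6 := mul_le_mul_of_nonneg_right hs.sum (abs_nonneg (CE m r))
  simp only [WW, add_sub_cancel_left] at *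
  linarith

/-! ### graphs and hypersurfaces -/

variable {k : ℕ} {Y : Type} [Mf0 (k + 1) Y] {g : Fld (k + 1) Y}

theorem aq_gn (hg : Met g) {η : ℝ} {P : Y → ℝ} {y : Y} (hP : Aq g η r P) (hη : η ≤ 1)
    (rp : 0 < r) (h : P y < r ^ 2) : gn g P y ≤ 3 * r := by
  refine Real.sqrt_le_iff.2 ⟨by positivity, (hP.gr y h).trans ?_⟩
  have := mul_le_mul_of_nonneg_right hη (hP.nn y)
  linarith [sq_nonneg r]

theorem tr_gb (hg : Met g) {u : Y → ℝ} (hu : Smooth u) {T : Fld (k + 1) Y} {y : Y} {c : ℝ}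
    (hc : 0 ≤ c) (h : ∀ ξ, c * qf (g y) ξ ≤ qf (T y) ξ) : c * k ≤ tr (gb g 1 u) T y := by
  have h1 := pair_nonneg ((met_g hg hu).inv_pos y).posSemidef (P := fun i j => T y i j - c * g y i j)
    fun ξ => by
      refine (sub_nonneg.2 (h ξ)).trans_eq ?_
      simp only [qf, Finset.mul_sum, ← Finset.sum_sub_distrib]
      exact Finset.sum_congr rfl fun i _ => Finset.sum_congr rfl fun j _ => by ring
  have h2 : tr (gb g 1 u) (gb g 1 u) y = tr (gb g 1 u) g y + ip (gb g 1 u) u u y := by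
    simp only [tr, ip, ← Finset.sum_add_distrib]
    exact Finset.sum_congr rfl fun i _ => Finset.sum_congr rfl fun j _ => by
      simp only [gb, Pi.one_apply]; ring
  rw [tr_self (met_g hg hu), ip_g_u hg] at h2
  have h3 : 0 ≤ (ww g 1 u y ^ 2)⁻¹ := by positivity
  have h4 : tr (gb g 1 u) T y - c * tr (gb g 1 u) g y = ∑ i, ∑ j, (mat (gb g 1 u) y)⁻¹ i j *
      (T y i j - c * g y i j) := by
    simp only [tr, up, Finset.mul_sum, ← Finset.sum_sub_distrib]
    exact Finset.sum_congr rfl fun i _ => Finset.sum_congr rfl fun j _ => by ring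
  push_cast at h2
  nlinarith

theorem eta_le (hk : 1 ≤ k) : 1 / (32 * (k : ℝ)) ≤ 1 := by
  have k1 : (1 : ℝ) ≤ k := by exact_mod_cast hk
  rw [div_le_one (by positivity)]; linarith

theorem gr_le (hk : 1 ≤ k) {a t : ℝ} (ht : 0 ≤ t) (h : a ≤ 4 * (1 + 1 / (32 * (k : ℝ))) * t) :
    a ≤ (4 + 1 / (2 * (k : ℝ))) * t := by
  have k1 : (1 : ℝ) ≤ k := by exact_mod_cast hk
  refine h.trans (mul_le_mul_of_nonneg_right ?_ ht)
  rw [mul_add, mul_one, add_le_add_iff_left, mul_one_div, div_le_div_iff₀ (by positivity)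
    (by positivity)]
  linarith

omit [Fintype J] in
theorem sq_graph (hk : 1 ≤ k) (hg : Met g) {P : J → Y → ℝ}
    (hP : ∀ j, Aq g (1 / (32 * k)) r (P j)) (rp : 0 < r) (hB : 0 ≤ B) (r1 : r * (96 * B) ≤ 1)
    {u : Y → ℝ} (hu : Smooth u) {y : Y} (hH : |dv g (nv g u) y| ≤ B) :
    Sq k (gb g 1 u) r B P y := by
  have k1 : (1 : ℝ) ≤ k := by exact_mod_cast hk
  have η1 := eta_le hk
  refine ⟨fun j => (hP j).sm.c2 _, fun j => (hP j).nn _, fun j h =>
    gr_le hk ((hP j).nn _) ((ip_g_le hg u _ y).trans ((hP j).gr _ h)), fun j h => ?_⟩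
  have a1 := lap_g hg hu ((hP j).sm.c2 y)
  have a2 := tr_gb hg hu (by linarith) ((hP j).he _ h)
  have a3 := aq_gn hg (hP j) η1 rp h
  have a4 : gn (gb g 1 u) (P j) y ≤ 3 * r := (Real.sqrt_le_sqrt (ip_g_le hg u _ y)).trans a3
  have a5 : dv g (nv g u) y * dn g u (P j) y ≤ B * (3 * r) := by
    refine (le_abs_self _).trans ?_
    rw [abs_mul]
    exact mul_le_mul hH ((abs_dn_le hg u _ y).trans a3) (abs_nonneg _) hB
  have a6 := mul_le_mul_of_nonneg_left a4 hB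
  have a7 : 2 * (1 - 1 / (32 * (k : ℝ))) * k = 2 * k - 1 / 16 := by field_simp; ring
  linarith

omit [Fintype J] in
theorem sq_sub (hk : 1 ≤ k) (hg : Met g) {P : J → Y → ℝ}
    (hP : ∀ j, Aq g (1 / (32 * k)) r (P j)) (rp : 0 < r) (hB : 0 ≤ B) (r1 : r * (96 * B) ≤ 1)
    {Z : Type} [Mf0 k Z] {ι : Z → Y} (hZ : Met (pull ι g)) (mc : Mc g ι B) {z : Z}
    (sm : SmM ι z) : Sq k (pull ι g) r B (fun j z => P j (ι z)) z := by
  have k1 : (1 : ℝ) ≤ k := by exact_mod_cast hk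
  have η1 := eta_le hk
  refine ⟨fun j => sm.cAt two_le_oo ((hP j).sm.c2 _), fun j => (hP j).nn _, fun j h =>
    gr_le hk ((hP j).nn _) ((ip_res hg hZ sm ((hP j).sm.diff _)).trans ((hP j).gr _ h)),
    fun j h => ?_⟩
  have a1 := (abs_le.1 (mc _ (hP j).sm z)).1
  have a2 := tr_res hZ ((hP j).he _ h)
  have a3 := aq_gn hg (hP j) η1 rp h
  have a4 := mul_le_mul_of_nonneg_left ((gn_res hg hZ sm ((hP j).sm.diff _)).trans a3) hB
  have a5 := mul_le_mul_of_nonneg_left a3 hB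
  have a7 : 2 * (1 - 1 / (32 * (k : ℝ))) * k = 2 * k - 1 / 16 := by field_simp; ring
  linarith

end Vale.Agent.P210H
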