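import Vale.Agent.P210H.Ker

/-!
# P210H: the gradient of the shield, pointwise, on a manifold of any dimension
(port of `P366H.Shield`)
-/

open Real Topology Set
open Filter hiding ker
open scoped ContDiff
open Vale.Agent.P366M Vale.Agent.P366D
open Vale.Agent.P366H hiding Sq gn_sum

noncomputable section

namespace Vale.Agent.P210H

variable {m d : ℕ} {N : Type} [Mf0 d N] {g : Fld d N} {x : N} {ι : Type} [Fintype ι]
  {δ r B : ℝ} {s : ι → ℝ} {q : ι → N → ℝ}

omit [Fintype ι] in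
theorem cA_ker {k : ℕ∞} {u : N → ℝ} {t : ℝ} (ht : 0 < t) (hu : CAt k u x) (h0 : 0 ≤ u x) :
    CAt k (fun y => ker m r t (u y)) x := (sm_ker (by positivity)).compM hu

theorem cA_w2 {k : ℕ∞} (hs : ∀ j, 0 < s j) (hq : ∀ j, CAt k (q j) x) (h0 : ∀ j, 0 ≤ q j x) :
    CAt k (fun y => w2 m r s fun j => q j y) x :=
  ContDiffAt.sum (f := fun j => loc (ch x) fun y => ker m r (s j) (q j y))
    fun j _ => cA_ker (hs j) (hq j) (h0 j)

theorem cA_WW {k : ℕ∞} (hs : ∀ j, 0 < s j) (hq : ∀ j, CAt k (q j) x) (h0 : ∀ j, 0 ≤ q j x) :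
    CAt k (fun y => WW m r s fun j => q j y) x :=
  cAt_const.add (ContDiffAt.sum
    (f := fun j => loc (ch x) fun y => s j ^ (-(3 / 2) : ℝ) * ker m r (s j) (q j y))
    fun j _ => cAt_const.mul (cA_ker (hs j) (hq j) (h0 j)))

theorem cA_hs {k : ℕ∞} {ε K : ℝ} (hs : ∀ j, 0 < s j) (hq : ∀ j, CAt k (q j) x)
    (h0 : ∀ j, 0 ≤ q j x) (hK : c0 m / 4 < K) (hw : w2 m r s (fun j => q j x) < K) :
    CAt k (fun y => P366H.hs m r ε K s fun j => q j y) x := by
  have h1 := one_le_WW (m := m) (r := r) hs h0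
  refine (cAt_const.mul ((sm_bet (by linarith)).compM (cA_WW hs hq h0))).mul
    (CAt.inv (cAt_const.sub (((sm_sig m K).of_le
      (by exact_mod_cast le_top)).contDiffAt.compM (cA_w2 hs hq h0))) ?_)
  exact (sub_pos.2 (sig_lt hK hw)).ne'

theorem Sq.gn_ker (hg : Met g) (h : Sq m g r B q x) (hs : Rad m δ s) (hδ : δ < 1) (hr : 0 < r)
    (j : ι) : gn g (fun y => ker m r (s j) (q j y)) x ≤
      s j ^ kk m * CG m r + 2 * kk m * (ker m r (s j) (q j x) / s j) := by
  have p := hs.pos j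
  have ρ : 0 < q j x + s j ^ 2 := by have := h.nn j; positivity
  rw [gn_comp (hd_ker ρ) (diff2 (h.c2 j))]
  exact ker_grad (hs.kk hδ j) hr p (h.nn j) (gn_nonneg _ _ _)
    fun hh => by rw [hg.gn_sq]; exact h.gr j hh

theorem Sq.gn_w2 (hg : Met g) (h : Sq m g r B q x) (hs : Rad m δ s) (hδ : δ < 1) (hr : 0 < r)
    (hw : w2 m r s (fun j => q j x) ≤ 1) : gn g (fun y => w2 m r s fun j => q j y) x ≤
      (CG m r + 4 * |kk m|) * WW m r s (fun j => q j x) ^ (2 / 3 : ℝ) := by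
  have h1 := one_le_WW (m := m) (r := r) hs.pos h.nn
  have h2 : 1 ≤ WW m r s (fun j => q j x) ^ (2 / 3 : ℝ) := one_le_rpow h1 (by norm_num)
  have a := gn_sum hg Finset.univ (c := fun _ : ι => (1 : ℝ)) (fun _ => zero_le_one)
    (u := fun j y => ker m r (s j) (q j y))
    fun j => diff2 (cA_ker (k := 2) (hs.pos j) (h.c2 j) (h.nn j))
  simp only [one_mul] at a
  refine a.trans ((Finset.sum_le_sum fun j _ => (h.gn_ker hg hs hδ hr j).trans (add_le_add
    (b := s j ^ ((m : ℝ) - 15 / 4) * CG m r) (d := 2 * |kk m| * (ker m r (s j) (q j x) / s j))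
    ?_ ?_)).trans ?_)
  · exact mul_le_mul_of_nonneg_right (rpow_le_rpow_of_exponent_ge (hs.pos j)
      ((hs.le j).trans hδ.le) (by unfold kk; linarith)) (CG_nn hr)
  · rw [abs_of_nonneg (hs.kk hδ j)]
  rw [Finset.sum_add_distrib, ← Finset.sum_mul, ← Finset.mul_sum]
  have b := sum_div_le (m := m) (r := r) hs.pos h.nn
  have c := CG_nn (m := m) hr
  have d := abs_nonneg (kk m)
  have e := hs.sum
  have k1 : (∑ j, s j ^ ((m : ℝ) - 15 / 4)) * CG m r ≤
      CG m r * WW m r s (fun j => q j x) ^ (2 / 3 : ℝ) := by nlinarith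
  have k2 : ∑ j, ker m r (s j) (q j x) / s j ≤ 2 * WW m r s (fun j => q j x) ^ (2 / 3 : ℝ) := by
    nlinarith
  nlinarith

theorem Sq.gn_WW (hg : Met g) (h : Sq m g r B q x) (hs : Rad m δ s) (hδ : δ < 1) (hr : 0 < r) :
    gn g (fun y => WW m r s fun j => q j y) x ≤ YY m r s := by
  have e : gn g (fun y => WW m r s fun j => q j y) x =
      gn g (fun y => ∑ j, s j ^ (-(3 / 2) : ℝ) * ker m r (s j) (q j y)) x := by
    unfold WW
    rw [gn_of_pd (s := 1) (u' := fun y => ∑ j, s j ^ (-(3 / 2) : ℝ) * ker m r (s j) (q j y))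
      (fun i => by rw [pd_const_add, one_mul]), abs_one, one_mul]
  rw [e]
  refine (gn_sum hg Finset.univ (fun j => (rpow_pos_of_pos (hs.pos j) _).le)
    (u := fun j y => ker m r (s j) (q j y))
    fun j => diff2 (cA_ker (k := 2) (hs.pos j) (h.c2 j) (h.nn j))).trans
    (Finset.sum_le_sum fun j _ => mul_le_mul_of_nonneg_left ((h.gn_ker hg hs hδ hr j).trans ?_)
      (rpow_pos_of_pos (hs.pos j) _).le)
  rw [abs_of_nonneg (hs.kk hδ j)]
  exact add_le_add le_rfl (mul_le_mul_of_nonneg_left (div_le_div_of_nonneg_right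
    (ker_le (hs.kk hδ j) (hs.pos j) (h.nn j)) (hs.pos j).le) (by linarith [hs.kk hδ j]))

/-- the gradient of the shield -/
theorem Sq.gn_hs (hg : Met g) (h : Sq m g r B q x) (hs : Rad m δ s) (hδ : δ < 1) (hr : 0 < r)
    {ε K θ : ℝ} (hε : 0 < ε) (hK : 3 * c0 m / 8 ≤ K) (hK' : K ≤ c0 m / 2)
    (hw : w2 m r s (fun j => q j x) < K) (hθ : 0 < θ) (h3 : 3 ≤ δ ^ (-(3 / 2) : ℝ) * (c0 m / 4))
    (h4 : DD * (8 / c0 m) * (CG m r + 4 * |kk m|) / (ε * θ) ≤
      (δ ^ (-(3 / 2) : ℝ) * (c0 m / 4)) ^ (1 / 30 : ℝ)) :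
    gn g (fun y => P366H.hs m r ε K s fun j => q j y) x ≤
      (9 * ε * DD + 7 / 10 * P366H.hs m r ε K s fun j => q j x) *
        (gn g (fun y => WW m r s fun j => q j y) x / WW m r s fun j => q j x) +
      θ * (P366H.hs m r ε K s fun j => q j x) ^ 2 := by
  have c0p := c0_pos m
  have hK1 : c0 m / 4 < K := by linarith
  have h1 := one_le_WW (m := m) (r := r) hs.pos h.nn
  have hD := DD_ge
  have dW := diff2 (cA_WW (k := 2) (m := m) (r := r) hs.pos h.c2 h.nn)
  have dw := diff2 (cA_w2 (k := 2) (m := m) (r := r) hs.pos h.c2 h.nn)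
  set W := fun y => WW m r s fun j => q j y with hW
  set w := fun y => w2 m r s fun j => q j y with hw'
  change w x < K at hw
  change 1 ≤ W x at h1
  have W0 : 0 < W x := by linarith
  have σ1 : 0 < 1 - sig m K (w x) := sub_pos.2 (sig_lt hK1 hw)
  have dτ : HasDerivAt (fun t => (1 - sig m K t)⁻¹) (sig1 m K (w x) / (1 - sig m K (w x)) ^ 2)
      (w x) := (((hd_sig m K (w x)).const_sub 1).inv σ1.ne').congr_deriv (by ring)
  have dβ := (hd_bet W0).const_mul ε
  have β0 := bet_nn W0.le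
  have τ0 : 0 < (1 - sig m K (w x))⁻¹ := inv_pos.2 σ1
  obtain ⟨u0, u1⟩ := sig1_bd hK (w x)
  have key : gn g (fun y => P366H.hs m r ε K s fun j => q j y) x ≤
      (1 - sig m K (w x))⁻¹ * (ε * (s1 (W x - 2) * W x ^ (7 / 10 : ℝ) + 7 / 10 * (bet (W x) / W x))) *
        gn g W x + ε * bet (W x) * (sig1 m K (w x) / (1 - sig m K (w x)) ^ 2) * gn g w x := by
    refine (hg.gn_add_le
      (u₁ := fun y => (1 - sig m K (w x))⁻¹ * (ε * bet (W y)))
      (u₂ := fun y => ε * bet (W x) * (1 - sig m K (w y))⁻¹) fun i => ?_).trans (le_of_eq ?_)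
    · rw [pd_const_mul, pd_const_mul (c := ε * bet (W x))]
      have := pd_mul (f := fun y => ε * bet (W y)) (h := fun y => (1 - sig m K (w y))⁻¹)
        (dβ.differentiableAt.compM dW) (dτ.differentiableAt.compM dw) i
      refine this.trans ?_
      ring
    · have a0 := s1_nn (W x - 2)
      rw [gn_of_pd (pd_const_mul _), gn_of_pd (pd_const_mul (c := ε * bet (W x))),
        gn_comp (φ := fun t => ε * bet t) dβ dW, gn_comp (φ := fun t => (1 - sig m K t)⁻¹) dτ dw,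
        abs_of_pos τ0, abs_of_nonneg (a := ε * bet (W x)) (by positivity),
        abs_of_nonneg (by positivity), abs_of_nonneg (by positivity)]
      ring
  have big : c0 m / 4 ≤ w x → δ ^ (-(3 / 2) : ℝ) * (c0 m / 4) ≤ W x := fun hh => by
    rcases isEmpty_or_nonempty ι with hι | ⟨⟨j⟩⟩
    · exfalso
      have : w x = 0 := by simp [hw', w2]
      linarith
    · exact (mul_le_mul_of_nonneg_left hh (rpow_pos_of_pos ((hs.pos j).trans_le (hs.le j)) _).le).trans
        (WW_ge hs h.nn)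
  have hh : P366H.hs m r ε K s (fun j => q j x) = ε * bet (W x) * (1 - sig m K (w x))⁻¹ := rfl
  rw [hh]
  have gW := gn_nonneg g W x
  have A : (1 - sig m K (w x))⁻¹ * (ε * (s1 (W x - 2) * W x ^ (7 / 10 : ℝ))) * gn g W x ≤
      9 * ε * DD * (gn g W x / W x) := by
    by_cases h5 : 3 ≤ W x
    · rw [s1_zero (Or.inr (by linarith))]
      simp only [zero_mul, mul_zero]; positivity
    have h6 : w x ≤ c0 m / 4 := by
      by_contra h7
      linarith [big (not_le.1 h7).le]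
    rw [sig_zero hK1 h6, sub_zero, inv_one, one_mul]
    have b1 : W x ^ (7 / 10 : ℝ) ≤ W x := by
      simpa using rpow_le_rpow_of_exponent_le h1 (by norm_num : (7 / 10 : ℝ) ≤ 1)
    have b2 : s1 (W x - 2) * W x ^ (7 / 10 : ℝ) ≤ DD * 3 :=
      mul_le_mul (s1_le _) (by linarith) (by positivity) (by linarith)
    have b3 : gn g W x ≤ 3 * (gn g W x / W x) := by
      rw [← mul_div_assoc, le_div_iff₀ W0]; nlinarith
    calc _ ≤ ε * (DD * 3) * (3 * (gn g W x / W x)) :=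
          mul_le_mul (mul_le_mul_of_nonneg_left b2 hε.le) b3 gW (by positivity)
      _ = _ := by ring
  have C : ε * bet (W x) * (sig1 m K (w x) / (1 - sig m K (w x)) ^ 2) * gn g w x ≤
      θ * (ε * bet (W x) * (1 - sig m K (w x))⁻¹) ^ 2 := by
    by_cases h6 : w x ≤ c0 m / 4
    · rw [sig1_zero hK1 h6]
      simp only [zero_div, zero_mul, mul_zero]; positivity
    have b0 := big (not_le.1 h6).le
    have b1 : 3 ≤ W x := h3.trans b0
    have hk : 0 ≤ kk m := by
      rcases isEmpty_or_nonempty ι with hι | ⟨⟨j⟩⟩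
      · exfalso
        have : w x = 0 := by simp [hw', w2]
        linarith [not_le.1 h6]
      · exact hs.kk hδ j
    have b2 := h.gn_w2 hg hs hδ hr (by change w x ≤ 1; linarith [c0_le hk])
    change gn g w x ≤ _ * W x ^ (2 / 3 : ℝ) at b2
    have b3 : DD * (8 / c0 m) * (CG m r + 4 * |kk m|) / (ε * θ) ≤ W x ^ (1 / 30 : ℝ) :=
      h4.trans (rpow_le_rpow (by linarith) b0 (by norm_num))
    rw [div_le_iff₀ (by positivity)] at b3
    have b4 : W x ^ (1 / 30 : ℝ) * W x ^ (2 / 3 : ℝ) = bet (W x) := by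
      rw [bet_eq b1, ← rpow_add W0]; norm_num
    have cg := CG_nn (m := m) hr
    have b5 : sig1 m K (w x) * gn g w x ≤ θ * (ε * bet (W x)) := by
      calc _ ≤ DD * (8 / c0 m) * ((CG m r + 4 * |kk m|) * W x ^ (2 / 3 : ℝ)) :=
            mul_le_mul u1 b2 (gn_nonneg _ _ _) (by positivity)
        _ = DD * (8 / c0 m) * (CG m r + 4 * |kk m|) * W x ^ (2 / 3 : ℝ) := by ring
        _ ≤ W x ^ (1 / 30 : ℝ) * (ε * θ) * W x ^ (2 / 3 : ℝ) :=
            mul_le_mul_of_nonneg_right b3 (by positivity)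
        _ = _ := by rw [← b4]; ring
    calc _ = ε * bet (W x) * ((1 - sig m K (w x))⁻¹) ^ 2 * (sig1 m K (w x) * gn g w x) := by
          rw [inv_pow]; ring
      _ ≤ ε * bet (W x) * ((1 - sig m K (w x))⁻¹) ^ 2 * (θ * (ε * bet (W x))) :=
          mul_le_mul_of_nonneg_left b5 (by positivity)
      _ = _ := by ring
  refine key.trans ?_
  have : (1 - sig m K (w x))⁻¹ * (ε * (s1 (W x - 2) * W x ^ (7 / 10 : ℝ) +
      7 / 10 * (bet (W x) / W x))) * gn g W x =
      (1 - sig m K (w x))⁻¹ * (ε * (s1 (W x - 2) * W x ^ (7 / 10 : ℝ))) * gn g W x +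
      7 / 10 * (ε * bet (W x) * (1 - sig m K (w x))⁻¹) * (gn g W x / W x) := by ring
  rw [this]
  linarith

/-- the two inequalities of the shield -/
theorem Sq.shd (hg : Met g) (h : Sq m g r B q x) (hs : Rad m δ s) (hδ : δ < 1) (hr : 0 < r)
    {ε θ θ' v : ℝ} (hε : 0 < ε) (hεv : 16200 * (ε * DD) ^ 2 ≤ v) (hθ : 0 < θ) (θ0 : 0 < θ')
    (θ1 : θ' ≤ 1 / 200) (θ2 : θ' ≤ θ / 2) (h3 : 3 ≤ δ ^ (-(3 / 2) : ℝ) * (c0 m / 4))
    (h4 : DD * (8 / c0 m) * (CG m r + 4 * |kk m|) / (ε * θ') ≤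
      (δ ^ (-(3 / 2) : ℝ) * (c0 m / 4)) ^ (1 / 30 : ℝ))
    (hw : w2 m r s (fun j => q j x) < c0 m / 2) :
    -v ≤ (gn g (fun y => WW m r s fun j => q j y) x / WW m r s fun j => q j x) ^ 2 / 2 +
        P366H.hs m r ε (c0 m / 2) s (fun j => q j x) ^ 2 -
        2 * gn g (fun y => P366H.hs m r ε (c0 m / 2) s fun j => q j y) x ∧
      (max 1 ((9 * ε * DD + 1) * YY m r s * (2 / θ)) ≤
          P366H.hs m r ε (c0 m / 2) s (fun j => q j x) →
        gn g (fun y => P366H.hs m r ε (c0 m / 2) s fun j => q j y) x ≤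
          θ * P366H.hs m r ε (c0 m / 2) s (fun j => q j x) ^ 2) := by
  have hD := DD_ge
  have c0p := c0_pos m
  have G := h.gn_hs hg hs hδ hr hε (K := c0 m / 2) (by linarith) le_rfl hw θ0 h3 h4
  have h1 := one_le_WW (m := m) (r := r) hs.pos h.nn
  have H0 := hs_nn (m := m) (r := r) hs.pos h.nn hε.le (by linarith : c0 m / 4 < c0 m / 2) hw
  have Y := h.gn_WW hg hs hδ hr
  have g0 := gn_nonneg g (fun y => WW m r s fun j => q j y) x
  set H := P366H.hs m r ε (c0 m / 2) s fun j => q j x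
  set y := gn g (fun y => WW m r s fun j => q j y) x / WW m r s fun j => q j x with hy
  have y0 : 0 ≤ y := div_nonneg g0 (by linarith)
  refine ⟨?_, fun hH => ?_⟩
  · have a1 : θ' * H ^ 2 ≤ 1 / 200 * H ^ 2 := mul_le_mul_of_nonneg_right θ1 (sq_nonneg _)
    nlinarith [sq_nonneg (y - 1800 * (ε * DD)), sq_nonneg (99 * H - 70 * y), sq_nonneg y]
  · have a1 : 1 ≤ H := (le_max_left _ _).trans hH
    have a2 : (9 * ε * DD + 1) * YY m r s * (2 / θ) ≤ H := (le_max_right _ _).trans hH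
    have a3 : y ≤ YY m r s := (div_le_self g0 h1).trans Y
    rw [← mul_div_assoc, div_le_iff₀ hθ] at a2
    have a4 : (9 * ε * DD + 7 / 10 * H) * y ≤ (9 * ε * DD + 1) * H * YY m r s :=
      mul_le_mul (by nlinarith [mul_pos hε (by linarith : 0 < DD)]) a3 y0 (by positivity)
    have a5 : θ' * H ^ 2 ≤ θ / 2 * H ^ 2 := mul_le_mul_of_nonneg_right θ2 (sq_nonneg _)
    nlinarith

end Vale.Agent.P210H
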