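import Vale.Agent.P210H.Main
import Vale.Agent.P366C.Trc

/-!
# P210H: truncation of a label; the two-sided wall around the singular set
-/

open Real Topology Set
open Filter hiding ker
open scoped ContDiff
open Vale.Agent.P366M Vale.Agent.P366D
open Vale.Agent.P366H hiding Sq gn_sum

noncomputable section

namespace Vale.Agent.P210H

theorem prof : ∃ a > (0 : ℝ), ∀ M > (0 : ℝ), ∃ φ : ℝ → ℝ, ContDiff ℝ ∞ φ ∧ (∀ t ≤ M / a, φ t = t) ∧
    (∀ t, 2 * (M / a) ≤ t → φ t = M) ∧ Monotone φ ∧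
    ∀ t, M / a ≤ t → |deriv φ t| * t ^ 2 ≤ φ t ^ 2 := by
  obtain ⟨φ, s, h1, h2, m, h3⟩ := An.TrcH.prof (T := 1 / 2) (by norm_num)
  have a0 : 0 < φ (4 * (1 / 2)) := by
    have := m (show (1 : ℝ) ≤ 4 * (1 / 2) by norm_num)
    rw [h1 1 (by norm_num)] at this
    linarith
  refine ⟨_, a0, fun M hM => ?_⟩
  have c0 : 0 < M / φ (4 * (1 / 2)) := div_pos hM a0
  have e : M / φ (4 * (1 / 2)) * φ (4 * (1 / 2)) = M := div_mul_cancel₀ _ a0.ne'
  generalize M / φ (4 * (1 / 2)) = c at c0 e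
  refine ⟨fun t => c * φ (t / c), by fun_prop, fun t ht => ?_, fun t ht => ?_,
    fun s t h => mul_le_mul_of_nonneg_left (m (div_le_div_of_nonneg_right h c0.le)) c0.le,
    fun t ht => ?_⟩
  · simp only
    rw [h1 _ (by rw [div_le_iff₀ c0]; linarith), mul_div_cancel₀ _ c0.ne']
  · simp only
    rw [h2 _ (by rw [le_div_iff₀ c0]; linarith), e]
  · have d : HasDerivAt (fun t => c * φ (t / c)) (c * (deriv φ (t / c) * (1 / c))) t :=
      (((s.differentiable (by simp)) _).hasDerivAt.comp t ((hasDerivAt_id t).div_const c)).const_mul c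
    have k := mul_le_mul_of_nonneg_left (h3 (t / c) (by rw [le_div_iff₀ c0]; linarith)) (sq_nonneg c)
    rw [d.deriv, show c * (deriv φ (t / c) * (1 / c)) = deriv φ (t / c) by field_simp, mul_pow]
    refine le_of_eq_of_le ?_ k
    field_simp

/-- the constant of the truncation -/
def aT : ℝ := prof.choose

theorem aT_pos : 0 < aT := prof.choose_spec.1

variable {d : ℕ} {N : Type} [Mf0 d N] {γ : Fld d N}

open Classical in
/-- **truncation** of a function which tends to infinity at the boundary of `O` -/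
theorem trunc {O : Set N} {f : N → ℝ} {θ h₁ M : ℝ} (hO : IsOpen O) (sm : ∀ x ∈ O, CAt ∞ f x)
    (f0 : ∀ x ∈ O, 0 ≤ f x) (cls : ∀ c, IsClosed {x | x ∈ O ∧ f x ≤ c}) (θ0 : 0 ≤ θ)
    (hb : ∀ x ∈ O, h₁ ≤ f x → gn γ f x ≤ θ * f x ^ 2) (hM : 0 < M) (h1 : h₁ ≤ M / aT) :
    ∃ F : N → ℝ, Smooth F ∧ (∀ x, 0 ≤ F x ∧ F x ≤ M) ∧ (∀ x ∉ O, F x = M) ∧
      (∀ x ∈ O, f x ≤ M / aT → F x = f x) ∧
      ∀ x, (x ∈ O ∧ F =ᶠ[𝓝 x] f) ∨ (M / aT ≤ F x ∧ gn γ F x ≤ θ * F x ^ 2) := by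
  obtain ⟨φ, sφ, φ1, φ2, φm, φd⟩ := prof.choose_spec.2 M hM
  change ∀ t ≤ M / aT, _ at φ1
  change ∀ t, 2 * (M / aT) ≤ t → _ at φ2
  change ∀ t, M / aT ≤ t → _ at φd
  have T0 : 0 < M / aT := div_pos hM aT_pos
  generalize M / aT = T at *
  have φ3 : ∀ t, T ≤ t → T ≤ φ t := fun t ht => (φ1 _ le_rfl).ge.trans (φm ht)
  have φ4 : ∀ t, φ t ≤ M := fun t => (φm (le_max_left t (2 * T))).trans_eq (φ2 _ (le_max_right _ _))
  have TM : T ≤ M := (φ3 T le_rfl).trans (φ4 T)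
  obtain ⟨F, e⟩ : ∃ F : N → ℝ, F = fun x => if x ∈ O then φ (f x) else M := ⟨_, rfl⟩
  have e1 : ∀ x ∈ O, F x = φ (f x) := fun x hx => by simp only [e, if_pos hx]
  have e2 : ∀ x ∉ O, F x = M := fun x hx => by simp only [e, if_neg hx]
  have v1 : ∀ x ∈ O, F =ᶠ[𝓝 x] fun y => φ (f y) := fun x hx => Eventually.mono (hO.mem_nhds hx) e1
  have v2 : ∀ x ∉ O, F =ᶠ[𝓝 x] fun _ => M := fun x hx => by
    filter_upwards [(cls (2 * T)).isOpen_compl.mem_nhds fun k => hx k.1] with y hy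
    by_cases k : y ∈ O
    · rw [e1 y k, φ2 _ (not_lt.1 fun k' => hy ⟨k, k'.le⟩)]
    · exact e2 y k
  refine ⟨F, cd_of_cAt le_rfl fun x => ?_, fun x => ?_, e2, fun x hx k => (e1 x hx).trans (φ1 _ k),
    fun x => ?_⟩
  · by_cases k : x ∈ O
    · exact (sφ.contDiffAt.compM (sm x k)).congr_of_eventuallyEq (v1 x k)
    · exact cAt_const.congr_of_eventuallyEq (v2 x k)
  · by_cases k : x ∈ O
    · rw [e1 x k]
      exact ⟨(φ1 0 T0.le).ge.trans (φm (f0 x k)), φ4 _⟩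
    · rw [e2 x k]; exact ⟨hM.le, le_rfl⟩
  by_cases k : x ∈ O
  · rcases lt_or_ge (f x) T with k' | k'
    · refine Or.inl ⟨k, ?_⟩
      filter_upwards [v1 x k, (sm x k).continuousAt.eventually (gt_mem_nhds k')] with y a b
      rw [a, φ1 _ b.le]
    · refine Or.inr ⟨e1 x k ▸ φ3 _ k', ?_⟩
      rw [e1 x k, gn_congr (v1 x k), gn_comp ((sφ.differentiable (by simp)) _).hasDerivAt
        ((sm x k).differentiableAt (by simp))]
      have k1 := mul_le_mul_of_nonneg_left (hb x k (h1.trans k')) (abs_nonneg (deriv φ (f x)))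
      have k2 := mul_le_mul_of_nonneg_left (φd _ k') θ0
      linarith
  · refine Or.inr ⟨e2 x k ▸ TM, ?_⟩
    rw [gn_congr (v2 x k), gn_zero fun i => pd_const _ i x]
    positivity

theorem cls_of {O : Set N} {f u : N → ℝ} (sm : ∀ x ∈ O, CAt ∞ f x) (hu : Continuous u)
    (h : ∀ c, ∃ a, (∀ x, u x ≤ a → x ∈ O) ∧ ∀ x ∈ O, f x ≤ c → u x ≤ a) (c : ℝ) :
    IsClosed {x | x ∈ O ∧ f x ≤ c} := by
  obtain ⟨a, a1, a2⟩ := h c
  have e : {x | x ∈ O ∧ f x ≤ c} = {z | u z ≤ a} ∩ f ⁻¹' Iic c := by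
    ext z
    exact ⟨fun k => ⟨a2 z k.1 k.2, k.2⟩, fun k => ⟨a1 z k.1, k.2⟩⟩
  rw [e]
  exact ContinuousOn.preimage_isClosed_of_isClosed (fun z hz =>
    (sm z (a1 z hz)).continuousAt.continuousWithinAt) (isClosed_le hu continuous_const) isClosed_Iic

/-- the data of the wall on the manifold `N`; the outer wall is `{κ = 0}`, the inner wall is
`{w = 1}` -/
structure Wd (γ : Fld d N) (D ε h₁ : ℝ) (W w h κ : N → ℝ) : Prop where
  met : Met γ
  smW : Smooth W
  smw : Smooth w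
  smh : ∀ x, w x < 1 → CAt ∞ h x
  smk : Smooth κ
  W1 : ∀ x, 1 ≤ W x
  h0 : ∀ x, w x < 1 → 0 ≤ h x
  low : ∀ x, W x ≤ 2 → h x = 0
  lrg : ∀ x, 2 * w x ≤ W x
  cls : ∀ c, ∃ a < 1, ∀ x, w x < 1 → h x ≤ c → w x ≤ a
  pos : ∀ x, w x < 1 → -ε ≤ (gn γ W x / W x) ^ 2 / 2 + h x ^ 2 - 2 * gn γ h x
  big : ∀ x, w x < 1 → h₁ ≤ h x → gn γ h x ≤ 1 / 4 * h x ^ 2
  k1 : ∀ x, κ x ≤ 1
  gk : ∀ x, gn γ κ x ≤ D
  alt : ∀ x, (κ =ᶠ[𝓝 x] fun _ => 1) ∨ W =ᶠ[𝓝 x] fun _ => 1

/-- **WALL** -/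
theorem wall (D P : ℝ) : ∃ Γ > (0 : ℝ), 3 * P ≤ Γ ∧ ∀ h₁ : ℝ, ∃ M₁ : ℝ, ∀ {d : ℕ} {N : Type} [Mf0 d N]
    {γ : Fld d N} {ε : ℝ} {W w h κ : N → ℝ}, 0 ≤ ε → Wd γ D ε h₁ W w h κ → ∀ M, M₁ ≤ M →
    ∃ H : N → ℝ, Smooth H ∧ ∀ x, |H x| ≤ M ∧ (1 ≤ w x → H x = M) ∧ (κ x ≤ 0 → H x = -M) ∧
      (0 < H x → 2 ≤ W x) ∧
      P - ε ≤ (gn γ W x / W x) ^ 2 / 2 + Γ * ((W x - 1) / W x) + H x ^ 2 - 2 * gn γ H x := by
  have hD := DD_ge
  have a0 := aT_pos
  obtain ⟨A, A1, AD, AP⟩ : ∃ A : ℝ, 1 ≤ A ∧ 4 * D ≤ A ∧ 2 * P ≤ A ^ 2 :=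
    ⟨1 + 4 * |D| + 2 * |P|, by linarith [abs_nonneg D, abs_nonneg P],
      by linarith [le_abs_self D, abs_nonneg P], by
        nlinarith [abs_nonneg D, abs_nonneg P, le_abs_self P]⟩
  have G0 : 0 ≤ (A * DD) ^ 2 := sq_nonneg _
  refine ⟨3 * (A ^ 2 + 128 * (A * DD) ^ 2), by positivity, by nlinarith, fun h₁ =>
    ⟨aT * (|h₁| + A + 1), fun {d N _ γ ε W w h κ} ε0 H M hM => ?_⟩⟩
  set Γ := 3 * (A ^ 2 + 128 * (A * DD) ^ 2) with hΓ
  have b0 := abs_nonneg h₁
  have M0 : 0 < M := lt_of_lt_of_le (by positivity) hM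
  have M1 : |h₁| + A + 1 ≤ M / aT := by rwa [le_div_iff₀' a0]
  obtain ⟨F, sF, F0, F1, F2, F3⟩ := trunc (γ := γ) (O := {x | w x < 1}) (f := h) (θ := 1 / 4)
    (isOpen_lt H.smw.cont continuous_const) H.smh H.h0 (cls_of H.smh H.smw.cont fun c => by
      obtain ⟨a, a1, a2⟩ := H.cls c
      exact ⟨a, fun x k => k.trans_lt a1, a2⟩) (by norm_num) H.big M0
      (by linarith [le_abs_self h₁])
  obtain ⟨f, hf⟩ : ∃ f : N → ℝ, f = fun x => A * smoothTransition (7 - 4 * W x) / κ x := ⟨_, rfl⟩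
  have c1 : ∀ x, CAt ∞ (fun x => A * smoothTransition (7 - 4 * W x)) x := fun x =>
    cAt_const.mul (sm_st.contDiffAt.compM (cAt_const.sub (cAt_const.mul (CD.contDiffAt H.smW))))
  have sf : ∀ x ∈ {x | 0 < κ x}, CAt ∞ f x := fun x k =>
    hf ▸ (c1 x).div (CD.contDiffAt H.smk) (ne_of_gt k)
  have fa : ∀ x, (W =ᶠ[𝓝 x] fun _ => 1) → f =ᶠ[𝓝 x] fun y => A * (κ y)⁻¹ := fun x k =>
    k.mono fun y e => by
      simp only [hf, e]
      rw [smoothTransition.one_of_one_le (by norm_num), mul_one, div_eq_mul_inv]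
  have fb : ∀ x, (κ =ᶠ[𝓝 x] fun _ => 1) → f =ᶠ[𝓝 x] fun y => A * smoothTransition (7 - 4 * W y) :=
    fun x k => k.mono fun y e => by simp only [hf, e, div_one]
  have fc : ∀ x, 0 < κ x → (W =ᶠ[𝓝 x] fun _ => 1) → A ≤ f x ∧ gn γ f x ≤ 1 / 4 * f x ^ 2 :=
    fun x k e => by
      have i1 : 1 ≤ (κ x)⁻¹ := (one_le_inv₀ k).2 (H.k1 x)
      rw [gn_congr (fa x e), (fa x e).self_of_nhds, gn_comp (φ := fun t => A * t⁻¹)
        ((hasDerivAt_inv k.ne').const_mul A) (H.smk.diff x), abs_mul, abs_neg,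
        abs_of_nonneg (by linarith), abs_of_nonneg (by positivity), ← inv_pow]
      refine ⟨by nlinarith, (mul_le_mul_of_nonneg_left ((H.gk x).trans (show D ≤ A / 4 by linarith))
        (by positivity)).trans_eq (by ring)⟩
  have fd : ∀ x, (κ =ᶠ[𝓝 x] fun _ => 1) → f x ≤ A := fun x e => by
    rw [(fb x e).self_of_nhds]
    exact mul_le_of_le_one_right (by linarith) (smoothTransition.le_one _)
  obtain ⟨G, sG, G0, G1, G2, G3⟩ := trunc (γ := γ) (O := {x | 0 < κ x}) (f := f) (θ := 1 / 4)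
    (h₁ := A + 1) (isOpen_lt continuous_const H.smk.cont) sf
    (fun x k => hf ▸ div_nonneg (mul_nonneg (by linarith) (smoothTransition.nonneg _)) (le_of_lt k))
    (cls_of (u := fun x => -κ x) sf H.smk.cont.neg fun c => ⟨-(1 / (|c| + 1)),
      fun x k => lt_of_lt_of_le (by positivity) (neg_le_neg_iff.1 k), fun x k e => by
        have k' : 0 < κ x := k
        rw [neg_le_neg_iff, div_le_iff₀ (by positivity)]
        rcases H.alt x with q | q
        · rw [q.self_of_nhds]; linarith [abs_nonneg c]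
        · rw [show f x = A * (κ x)⁻¹ from (fa x q).self_of_nhds, ← div_eq_mul_inv,
            div_le_iff₀ k'] at e
          nlinarith [le_abs_self c]⟩) (by norm_num)
    (fun x k e => (H.alt x).elim (fun q => absurd (fd x q) (by linarith)) fun q => (fc x k q).2) M0
    (by linarith)
  have Fz : ∀ x, W x < 2 → F x = 0 := fun x k => by
    have := H.low x k.le
    rw [F2 x (show w x < 1 by linarith [H.lrg x]) (by linarith), this]
  have Gz : ∀ x, 7 / 4 < W x → G x = 0 := fun x k => by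
    rcases H.alt x with q | q
    · have : f x = 0 := by
        rw [show f x = A * _ from (fb x q).self_of_nhds,
          smoothTransition.zero_of_nonpos (by linarith), mul_zero]
      rw [G2 x (show 0 < κ x by rw [q.self_of_nhds]; exact one_pos) (by linarith), this]
    · linarith [q.self_of_nhds]
  refine ⟨fun x => F x - G x, sF.sub sG, fun x => ⟨abs_le.2 ⟨by linarith [F0 x, G0 x],
    by linarith [F0 x, G0 x]⟩, fun k => ?_, fun k => ?_, fun k => ?_, ?_⟩⟩ <;> beta_reduce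
  · rw [F1 x (not_lt.2 k), Gz x (by linarith [H.lrg x]), sub_zero]
  · rcases H.alt x with q | q
    · linarith [q.self_of_nhds]
    · rw [G1 x (not_lt.2 k), Fz x (by linarith [q.self_of_nhds]), zero_sub]
  · by_contra q
    beta_reduce at k
    linarith [Fz x (not_le.1 q), G0 x]
  have W1 := H.W1 x
  have y0 : 0 ≤ gn γ W x / W x := div_nonneg (gn_nonneg _ _ _) (by linarith)
  have g0 : 0 ≤ Γ * ((W x - 1) / W x) := mul_nonneg (by positivity) (div_nonneg (by linarith)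
    (by linarith))
  have g1 : 3 / 2 ≤ W x → A ^ 2 + 128 * (A * DD) ^ 2 ≤ Γ * ((W x - 1) / W x) := fun k => by
    have : 1 / 3 ≤ (W x - 1) / W x := by rw [le_div_iff₀ (by linarith)]; linarith
    linarith [mul_le_mul_of_nonneg_left this (show 0 ≤ Γ by positivity)]
  rcases lt_or_ge (W x) 2 with k | k
  · have e : (fun x => F x - G x) =ᶠ[𝓝 x] fun y => -1 * G y :=
      (H.smW.cont.continuousAt.eventually (gt_mem_nhds k)).mono fun y b => by
        simp only [Fz y b]; ring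
    rw [gn_congr e, gn_of_pd (pd_const_mul _), Fz x k, abs_neg, abs_one, one_mul, zero_sub, neg_sq]
    have big : ∀ {a b : ℝ}, A ≤ a → b ≤ 1 / 4 * a ^ 2 → P - ε ≤ (gn γ W x / W x) ^ 2 / 2 +
        Γ * ((W x - 1) / W x) + a ^ 2 - 2 * b := fun h1 h2 => by
      nlinarith [sq_nonneg (gn γ W x / W x)]
    rcases G3 x with ⟨q, e⟩ | q
    · rw [gn_congr e, e.self_of_nhds]
      rcases H.alt x with p | p
      · have hd : HasDerivAt (fun t => A * smoothTransition (7 - 4 * t))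
            (A * (s1 (7 - 4 * W x) * (-4))) (W x) :=
          ((hd0 _).comp (W x) (by
            simpa using ((hasDerivAt_id (W x)).const_mul 4).const_sub 7)).const_mul A
        rw [gn_congr (fb x p), show f x = A * _ from (fb x p).self_of_nhds,
          gn_comp hd (H.smW.diff x)]
        rcases le_total (W x) (3 / 2) with r | r
        · rw [s1_zero (Or.inr (by linarith)), smoothTransition.one_of_one_le (by linarith)]
          exact big (by linarith) (by simp only [zero_mul, mul_zero, abs_zero]; positivity)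
        · have i1 : |A * (s1 (7 - 4 * W x) * (-4))| ≤ 4 * (A * DD) := by
            rw [abs_mul, abs_mul, abs_of_nonneg (by linarith), abs_of_nonneg (s1_nn _), abs_neg,
              abs_of_pos four_pos]
            nlinarith [s1_le (7 - 4 * W x)]
          have i2 : gn γ W x ≤ 2 * (gn γ W x / W x) := by
            rw [← mul_div_assoc, le_div_iff₀ (by linarith)]
            nlinarith [gn_nonneg γ W x]
          have i3 := mul_le_mul i1 i2 (gn_nonneg _ _ _) (by positivity)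
          nlinarith [g1 r, sq_nonneg (gn γ W x / W x - 16 * (A * DD)),
            sq_nonneg (A * smoothTransition (7 - 4 * W x))]
      · exact big (fc x q p).1 (fc x q p).2
    · exact big (by linarith [q.1]) q.2
  · have e : (fun x => F x - G x) =ᶠ[𝓝 x] F :=
      (H.smW.cont.continuousAt.eventually (lt_mem_nhds (show 7 / 4 < W x by linarith))).mono
        fun y b => by simp only [Gz y b, sub_zero]
    have g2 := g1 (by linarith)
    rw [gn_congr e, Gz x (by linarith), sub_zero]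
    rcases F3 x with ⟨q, e⟩ | q
    · rw [gn_congr e, e.self_of_nhds]
      nlinarith [H.pos x q]
    · nlinarith [q.2, sq_nonneg (gn γ W x / W x), sq_nonneg (F x)]

end Vale.Agent.P210H
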